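import Vale.Agent.P313.R2.H284.Main

/-!
Zero tests of integer polynomials in acceptance probabilities: machines with few coins.
-/

namespace Vale.Agent.P313.PT

open Finset CP Sel RI

/-! ### The space bound -/

theorem Q_bdC {L k lam l c : ℕ} (hk : 1 ≤ k) (hl1 : 1 ≤ l) (hl : l ≤ lam + c) :
    l / (k * (Nat.log 2 (k * (L / l + 1)) + 1)) ≤
      (c + 2) ^ 2 * (lam / (k * (Nat.log 2 (k * (L / lam + 1)) + 1))) + (c + 2) ^ 2 := by
  rcases Nat.eq_zero_or_pos lam with h0 | h0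
  · refine (Nat.div_le_self _ _).trans (le_trans ?_ (Nat.le_add_left _ _))
    nlinarith only [hl, h0]
  · set q' := k * (Nat.log 2 (k * (L / l + 1)) + 1) with hq'
    set q := k * (Nat.log 2 (k * (L / lam + 1)) + 1) with hq
    have hq1 : 1 ≤ q := Nat.mul_pos (by omega) (Nat.succ_pos _)
    have hl2 : l ≤ (c + 1) * lam := by nlinarith only [hl, h0]
    have hc : c + 1 ≤ 2 ^ (c + 1) := Nat.lt_two_pow_self.le
    have hl3 : l ≤ lam * 2 ^ (c + 1) := by
      calc l ≤ (c + 1) * lam := hl2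
        _ ≤ 2 ^ (c + 1) * lam := Nat.mul_le_mul_right _ hc
        _ = _ := mul_comm _ _
    have h1 : L / lam + 1 ≤ (L / l + 1) * 2 ^ (c + 1) := by
      have h2 : L / (lam * 2 ^ (c + 1)) ≤ L / l := Nat.div_le_div_left hl3 hl1
      have h3 : L / lam / 2 ^ (c + 1) = L / (lam * 2 ^ (c + 1)) := Nat.div_div_eq_div_mul _ _ _
      have h4 : L / lam < (L / lam / 2 ^ (c + 1) + 1) * 2 ^ (c + 1) := by
        rw [mul_comm]
        exact Nat.lt_mul_div_succ _ (by positivity)
      rw [h3] at h4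
      have h5 : (L / (lam * 2 ^ (c + 1)) + 1) * 2 ^ (c + 1) ≤ (L / l + 1) * 2 ^ (c + 1) :=
        Nat.mul_le_mul_right _ (Nat.succ_le_succ h2)
      omega
    have h2 : Nat.log 2 (k * (L / lam + 1)) ≤ Nat.log 2 (k * (L / l + 1)) + (c + 1) := by
      have h3 : k * (L / lam + 1) ≤ k * (L / l + 1) * 2 ^ (c + 1) := by
        calc k * (L / lam + 1) ≤ k * ((L / l + 1) * 2 ^ (c + 1)) := Nat.mul_le_mul_left _ h1
          _ = _ := by ring
      have h4 : k * (L / l + 1) < 2 ^ (Nat.log 2 (k * (L / l + 1)) + 1) :=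
        Nat.lt_pow_succ_log_self (by norm_num) _
      have h5 : k * (L / lam + 1) < 2 ^ (Nat.log 2 (k * (L / l + 1)) + (c + 1) + 1) := by
        calc k * (L / lam + 1) ≤ k * (L / l + 1) * 2 ^ (c + 1) := h3
          _ < 2 ^ (Nat.log 2 (k * (L / l + 1)) + 1) * 2 ^ (c + 1) :=
            Nat.mul_lt_mul_of_pos_right h4 (by positivity)
          _ = _ := by rw [← pow_add]; congr 1; ring
      have h6 : k * (L / lam + 1) ≠ 0 := (Nat.mul_pos (by omega) (Nat.succ_pos _)).ne'
      have := Nat.log_lt_of_lt_pow h6 h5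
      omega
    have h3 : q ≤ (c + 2) * q' := by
      rw [hq, hq']
      have h4 : Nat.log 2 (k * (L / lam + 1)) + 1 ≤
          (c + 2) * (Nat.log 2 (k * (L / l + 1)) + 1) := by
        nlinarith only [h2]
      calc k * (Nat.log 2 (k * (L / lam + 1)) + 1) ≤
            k * ((c + 2) * (Nat.log 2 (k * (L / l + 1)) + 1)) := Nat.mul_le_mul_left _ h4
        _ = _ := by ring
    calc l / q' = ((c + 2) * l) / ((c + 2) * q') :=
          (Nat.mul_div_mul_left _ _ (by omega)).symm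
      _ ≤ ((c + 2) * l) / q := Nat.div_le_div_left h3 hq1
      _ ≤ ((c + 2) ^ 2 * lam) / q := by
          apply Nat.div_le_div_right
          calc (c + 2) * l ≤ (c + 2) * ((c + 1) * lam) := Nat.mul_le_mul_left _ hl2
            _ ≤ (c + 2) * ((c + 2) * lam) :=
              Nat.mul_le_mul_left _ (Nat.mul_le_mul_right _ (by omega))
            _ = _ := by ring
      _ ≤ _ := mul_div_le' _ _ hq1 (Nat.one_le_pow _ _ (by omega))

/-- The space bound when the number of coins is at most `C * (2 ^ lam + κ * log n)`. -/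
theorem bd_few (Q : Chm) (e C : ℕ) {κ lam : ℕ → ℕ} (hκ1 : ∀ n, 1 ≤ κ n)
    (hT : ∀ x, Q.T x ≤ C * (2 ^ lam x.length + κ x.length * Ln x)) :
    ∃ B, ∀ x, Ln x * (κ x.length + Nat.log 2 (Ln x) +
      Qn (fun x => κ x.length) (lamD Q e) x) ≤
      B * (Nat.log 2 (x.length + 2) * (κ x.length + Nat.log 2 (Nat.log 2 (x.length + 2)) +
        lam x.length / (κ x.length * (Nat.log 2 (κ x.length *
          (Nat.log 2 (x.length + 2) / lam x.length + 1)) + 1)))) + B := by
  obtain ⟨E, hE⟩ : ∃ E, E = (2 * C + 3) ^ 2 := ⟨_, rfl⟩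
  refine ⟨E + 2 * C + 4, fun x => ?_⟩
  have hk := hκ1 x.length
  have hLe : Nat.log 2 (x.length + 2) = Ln x := rfl
  have hL1 : 1 ≤ Ln x := Ln_pos x
  rw [hLe]
  have hQ : Qn (fun x => κ x.length) (lamD Q e) x = (Nat.log 2 (Q.T x) + 1) /
      (κ x.length * (Nat.log 2 (κ x.length * (Ln x / (Nat.log 2 (Q.T x) + 1) + 1)) + 1)) := rfl
  have h2C : 2 * C ≤ 2 ^ (2 * C) := Nat.lt_two_pow_self.le
  have key : κ x.length + Nat.log 2 (Ln x) + Qn (fun x => κ x.length) (lamD Q e) x ≤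
      (E + 2 * C + 4) * (κ x.length + Nat.log 2 (Ln x) + lam x.length / (κ x.length *
      (Nat.log 2 (κ x.length * (Ln x / lam x.length + 1)) + 1))) := by
    rcases le_total (κ x.length * Ln x) (2 ^ lam x.length) with h | h
    · -- few coins for the zero test
      have h1 : Q.T x ≤ 2 ^ (2 * C + lam x.length) := by
        calc Q.T x ≤ C * (2 ^ lam x.length + κ x.length * Ln x) := hT x
          _ ≤ C * (2 ^ lam x.length + 2 ^ lam x.length) :=
            Nat.mul_le_mul_left _ (Nat.add_le_add_left h _)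
          _ = 2 * C * 2 ^ lam x.length := by ring
          _ ≤ 2 ^ (2 * C) * 2 ^ lam x.length := Nat.mul_le_mul_right _ h2C
          _ = _ := by rw [← pow_add]
      have h2 : Nat.log 2 (Q.T x) ≤ 2 * C + lam x.length := by
        have := Nat.log_mono_right (b := 2) h1
        rwa [Nat.log_pow (by norm_num)] at this
      have h3 := Q_bdC (L := Ln x) (k := κ x.length) (lam := lam x.length)
        (l := Nat.log 2 (Q.T x) + 1) (c := 2 * C + 1) hk (Nat.succ_pos _) (by omega)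
      rw [← hQ, ← hE] at h3
      generalize lam x.length / (κ x.length *
        (Nat.log 2 (κ x.length * (Ln x / lam x.length + 1)) + 1)) = V at *
      generalize Qn (fun x => κ x.length) (lamD Q e) x = W at *
      generalize Nat.log 2 (Ln x) = J at *
      generalize κ x.length = k at *
      have e1 : E ≤ E * k := Nat.le_mul_of_pos_right _ hk
      calc k + J + W ≤ k + J + (E * V + E * k) := by omega
        _ ≤ (E + 2 * C + 4) * k + (E + 2 * C + 4) * J + (E + 2 * C + 4) * V := by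
            nlinarith only [Nat.zero_le (E * J), Nat.zero_le (C * k), Nat.zero_le (C * J),
              Nat.zero_le (C * V), Nat.zero_le V, Nat.zero_le J, Nat.zero_le k]
        _ = _ := by ring
    · have h1 : Q.T x ≤ 2 ^ (2 * C + κ x.length + (Nat.log 2 (Ln x) + 1)) := by
        calc Q.T x ≤ C * (2 ^ lam x.length + κ x.length * Ln x) := hT x
          _ ≤ C * (κ x.length * Ln x + κ x.length * Ln x) :=
            Nat.mul_le_mul_left _ (Nat.add_le_add_right h _)
          _ = 2 * C * κ x.length * Ln x := by ring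
          _ ≤ 2 ^ (2 * C) * 2 ^ κ x.length * 2 ^ (Nat.log 2 (Ln x) + 1) :=
            Nat.mul_le_mul (Nat.mul_le_mul h2C Nat.lt_two_pow_self.le)
              (Nat.lt_pow_succ_log_self (by norm_num) _).le
          _ = _ := by rw [← pow_add, ← pow_add]
      have h2 : Nat.log 2 (Q.T x) ≤ 2 * C + κ x.length + (Nat.log 2 (Ln x) + 1) := by
        have := Nat.log_mono_right (b := 2) h1
        rwa [Nat.log_pow (by norm_num)] at this
      have h3 : Qn (fun x => κ x.length) (lamD Q e) x ≤ Nat.log 2 (Q.T x) + 1 := by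
        rw [hQ]
        exact Nat.div_le_self _ _
      generalize lam x.length / (κ x.length *
        (Nat.log 2 (κ x.length * (Ln x / lam x.length + 1)) + 1)) = V at *
      generalize Qn (fun x => κ x.length) (lamD Q e) x = W at *
      generalize Nat.log 2 (Ln x) = J at *
      generalize κ x.length = k at *
      have e1 : 2 * C + 2 ≤ (2 * C + 2) * k := Nat.le_mul_of_pos_right _ hk
      calc k + J + W ≤ k + J + ((2 * C + 2) * k + k + J) := by omega
        _ ≤ (E + 2 * C + 4) * k + (E + 2 * C + 4) * J + (E + 2 * C + 4) * V := by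
            nlinarith only [Nat.zero_le (E * J), Nat.zero_le (C * k), Nat.zero_le (C * J),
              Nat.zero_le (C * V), Nat.zero_le V, Nat.zero_le J, Nat.zero_le k,
              Nat.zero_le (E * k), Nat.zero_le (E * V)]
        _ = _ := by ring
  calc _ ≤ Ln x * ((E + 2 * C + 4) * (κ x.length + Nat.log 2 (Ln x) + lam x.length / (κ x.length *
      (Nat.log 2 (κ x.length * (Ln x / lam x.length + 1)) + 1)))) := Nat.mul_le_mul_left _ key
    _ = (E + 2 * C + 4) * (Ln x * (κ x.length + Nat.log 2 (Ln x) + lam x.length / (κ x.length *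
      (Nat.log 2 (κ x.length * (Ln x / lam x.length + 1)) + 1)))) := by ring
    _ ≤ _ := Nat.le_add_right _ _

/-! ### Chains with few coins -/

/-- Acceptance probabilities of logspace computable chains with at most `C * 2 ^ lam` coins. -/
def IsPrL (lam : ℕ → ℕ) (p : List Bool → ℚ) : Prop :=
  ∃ (Q : Chn) (C : ℕ), (∀ x, Q.T x ≤ C * 2 ^ lam x.length) ∧ ∀ x, pr Q x = p x

variable {lam : ℕ → ℕ}

theorem cst_T (c : ℕ) (hc : c < 2) (x : List Bool) : (cst c hc).T x ≤ 1 * 2 ^ lam x.length := by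
  rw [one_mul]
  exact Nat.one_le_two_pow

theorem IsPrL.zero : IsPrL lam (fun _ => 0) :=
  ⟨cst 1 (by norm_num), 1, cst_T 1 _, fun x => by rw [pr_cst, if_neg (by norm_num)]⟩

theorem IsPrL.one : IsPrL lam (fun _ => 1) :=
  ⟨cst 0 (by norm_num), 1, cst_T 0 _, fun x => by rw [pr_cst, if_pos rfl]⟩

theorem cond_T {Q0 Q1 Q2 : Chn} {C0 C1 C2 : ℕ} (h0 : ∀ x, Q0.T x ≤ C0 * 2 ^ lam x.length)
    (h1 : ∀ x, Q1.T x ≤ C1 * 2 ^ lam x.length) (h2 : ∀ x, Q2.T x ≤ C2 * 2 ^ lam x.length)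
    (x : List Bool) : (cond Q0 Q1 Q2).T x ≤ (C0 + (C1 + C2)) * 2 ^ lam x.length := by
  show Q0.T x + (Q1.T x + Q2.T x) ≤ _
  rw [add_mul, add_mul]
  exact Nat.add_le_add (h0 x) (Nat.add_le_add (h1 x) (h2 x))

theorem IsPrL.mul {p q : List Bool → ℚ} (hp : IsPrL lam p) (hq : IsPrL lam q) :
    IsPrL lam (fun x => p x * q x) := by
  obtain ⟨Q, C, hC, hQ⟩ := hp
  obtain ⟨R, D, hD, hR⟩ := hq
  refine ⟨cond Q R (cst 1 (by norm_num)), _, cond_T hC hD (cst_T 1 _), fun x => ?_⟩
  rw [pr_cond, pr_cst, if_neg (by norm_num), hQ, hR]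
  ring

theorem lfx_zero' : LFx (fun _ => 0) := P313.LF.const 0

theorem coin_T (x : List Bool) :
    (PT.tiny (fun _ => 0) lfx_zero').T x ≤ 1 * 2 ^ lam x.length := by
  rw [one_mul]
  exact Nat.one_le_two_pow

theorem IsPrL.avg {p q : List Bool → ℚ} (hp : IsPrL lam p) (hq : IsPrL lam q) :
    IsPrL lam (fun x => (p x + q x) / 2) := by
  obtain ⟨Q, C, hC, hQ⟩ := hp
  obtain ⟨R, D, hD, hR⟩ := hq
  refine ⟨cond (PT.tiny (fun _ => 0) lfx_zero') Q R, _, cond_T coin_T hC hD, fun x => ?_⟩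
  have h1 := pr_tiny (fun _ => 0) lfx_zero' x
  rw [pr_cond, h1, hQ, hR]
  ring

theorem IsPrL.div_pow {p : List Bool → ℚ} (hp : IsPrL lam p) (s : ℕ) :
    IsPrL lam (fun x => p x / 2 ^ s) := by
  induction s with
  | zero =>
    obtain ⟨Q, C, hC, hQ⟩ := hp
    refine ⟨Q, C, hC, fun x => ?_⟩
    show _ = p x / 2 ^ 0
    rw [hQ, pow_zero, div_one]
  | succ s ih =>
    obtain ⟨Q, C, hC, hQ⟩ := ih.avg IsPrL.zero
    refine ⟨Q, C, hC, fun x => (hQ x).trans ?_⟩
    show (p x / 2 ^ s + 0) / 2 = p x / 2 ^ (s + 1)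
    rw [add_zero, div_div, pow_succ]

/-- The chain with another bound for the number of coins. -/
def cut (Q : Chn) (T : List Bool → ℕ) (hT : LFx T) (hT1 : ∀ x, 0 < T x)
    (hA : ∀ x, Abs (Q.cs x) (T x) (Q.st x)) : Chn where
  N0 := Q.N0
  T := T
  st := Q.st
  δ := Q.δ
  lfN := Q.lfN
  lfT := hT
  lfst := Q.lfst
  lfδ := Q.lfδ
  two_le := Q.two_le
  T_pos := hT1
  st_lt := Q.st_lt
  or_lt := Q.or_lt
  halts x := halts_of_abs (cs := Q.cs x) (Chn_fix Q x) (hA x)

theorem pr_cut (Q : Chn) (T : List Bool → ℕ) (hT : LFx T) (hT1 : ∀ x, 0 < T x)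
    (hA : ∀ x, Abs (Q.cs x) (T x) (Q.st x)) (x : List Bool) :
    pr (cut Q T hT hT1 hA) x = pr Q x :=
  hit_abs_eq (cs := Q.cs x) (Chn_fix Q x) (hA x) (Abs.of_halts (cs := Q.cs x) (Q.halts x)) 0

theorem IsPrL.machine (hl : LFx (fun x => lam x.length)) (M : RTM) (c : ℕ)
    (hM : M.Bounded (fun n => (n + 2) ^ c) (fun n => c * Nat.log 2 (n + 2)))
    (hR : ∀ (x : List Bool) (v : Bool),
      M.probAt x v ((x.length + 2) ^ c) (2 ^ lam x.length + 1) M.init = 0) :
    IsPrL lam (fun x => M.probAt x true ((x.length + 2) ^ c) 0 M.init) :=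
  ⟨cut (ofM M c hM) (TL lam c) (lfx_TL hl c) (fun _ => Nat.two_pow_pos _)
    (fun x => abs_TL M le_rfl hM hR x), 1, fun x => by
      rw [one_mul]
      exact Nat.pow_le_pow_right (by norm_num) (min_le_left _ _),
    fun x => (pr_cut _ _ _ _ _ x).trans (ofM_hit M c hM x le_rfl)⟩

/-! ### Differences -/

/-- `f` is a power of two times a difference of two acceptance probabilities. -/
def RepL (lam : ℕ → ℕ) (f : List Bool → ℚ) : Prop :=
  ∃ (s : ℕ) (A B : List Bool → ℚ), IsPrL lam A ∧ IsPrL lam B ∧ ∀ x, f x = 2 ^ s * (A x - B x)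

theorem RepL.of {p : List Bool → ℚ} (hp : IsPrL lam p) : RepL lam p :=
  ⟨0, p, fun _ => 0, hp, IsPrL.zero, fun x => by rw [pow_zero, one_mul, sub_zero]⟩

theorem RepL.neg {f : List Bool → ℚ} (hf : RepL lam f) : RepL lam (-f) := by
  obtain ⟨s, A, B, hA, hB, h⟩ := hf
  refine ⟨s, B, A, hB, hA, fun x => ?_⟩
  rw [Pi.neg_apply, h]
  ring

theorem RepL.add {f g : List Bool → ℚ} (hf : RepL lam f) (hg : RepL lam g) :
    RepL lam (f + g) := by
  obtain ⟨s, A, B, hA, hB, h⟩ := hf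
  obtain ⟨t, C, D, hC, hD, k⟩ := hg
  refine ⟨s + t + 1, _, _, (hA.div_pow t).avg (hC.div_pow s), (hB.div_pow t).avg (hD.div_pow s),
    fun x => ?_⟩
  rw [Pi.add_apply, h, k]
  have e1 : (2 : ℚ) ^ s ≠ 0 := by positivity
  have e2 : (2 : ℚ) ^ t ≠ 0 := by positivity
  rw [pow_succ, pow_add]
  field_simp
  ring

theorem RepL.mul {f g : List Bool → ℚ} (hf : RepL lam f) (hg : RepL lam g) :
    RepL lam (f * g) := by
  obtain ⟨s, A, B, hA, hB, h⟩ := hf
  obtain ⟨t, C, D, hC, hD, k⟩ := hg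
  refine ⟨s + t + 1, _, _, (hA.mul hC).avg (hB.mul hD), (hA.mul hD).avg (hB.mul hC), fun x => ?_⟩
  rw [Pi.mul_apply, h, k, pow_succ, pow_add]
  ring

/-- The ring of these functions. -/
def repRingL (lam : ℕ → ℕ) : Subring (List Bool → ℚ) where
  carrier := {f | RepL lam f}
  mul_mem' := RepL.mul
  one_mem' := RepL.of IsPrL.one
  add_mem' := RepL.add
  zero_mem' := RepL.of IsPrL.zero
  neg_mem' := RepL.neg

theorem rep_aevalL {ι : Type} {p : ι → List Bool → ℚ} (hp : ∀ i, IsPrL lam (p i))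
    (P : MvPolynomial ι ℤ) : RepL lam (fun x => MvPolynomial.aeval (fun i => p i x) P) := by
  induction P using MvPolynomial.induction_on with
  | C a =>
    have h : ((a : ℤ) : List Bool → ℚ) ∈ repRingL lam := intCast_mem (repRingL lam) a
    have e : (fun x => MvPolynomial.aeval (fun i => p i x) (MvPolynomial.C a : MvPolynomial ι ℤ)) =
        ((a : ℤ) : List Bool → ℚ) := by
      funext x
      simp
    rw [e]
    exact h
  | add P R h1 h2 =>
    have h := RepL.add h1 h2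
    have e : (fun x => MvPolynomial.aeval (fun i => p i x) (P + R)) =
        (fun x => MvPolynomial.aeval (fun i => p i x) P) +
          (fun x => MvPolynomial.aeval (fun i => p i x) R) := by
      funext x
      simp
    rw [e]
    exact h
  | mul_X P i h1 =>
    have h := RepL.mul h1 (RepL.of (hp i))
    have e : (fun x => MvPolynomial.aeval (fun i => p i x) (P * MvPolynomial.X i)) =
        (fun x => MvPolynomial.aeval (fun i => p i x) P) * (p i) := by
      funext x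
      simp
    rw [e]
    exact h

/-! ### The comparison -/

/-- Comparison of two chains with few coins up to `n ^ (- e κ)`. -/
theorem dtisp_chainsL {κ : ℕ → ℕ} (hκ : LFx (fun x => κ x.length)) (hκ1 : ∀ n, 1 ≤ κ n)
    (Q1 Q2 : Chn) (e C : ℕ)
    (hC : ∀ x, Q1.T x + Q2.T x ≤ C * (2 ^ lam x.length + κ x.length * Ln x)) :
    ∃ A : Set (List Bool), DTISP (fun n => (n + 2) ^ κ n)
      (fun n => Nat.log 2 (n + 2) * (κ n + Nat.log 2 (Nat.log 2 (n + 2)) +
        lam n / (κ n * (Nat.log 2 (κ n * (Nat.log 2 (n + 2) / lam n + 1)) + 1)))) A ∧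
      ∀ x : List Bool,
        (pr Q2 x + 1 / ((x.length : ℚ) + 2) ^ (e * κ x.length) ≤ pr Q1 x → x ∈ A) ∧
        (pr Q1 x + 1 / ((x.length : ℚ) + 2) ^ (e * κ x.length) ≤ pr Q2 x → x ∉ A) := by
  have hT : LFx (fun x => Q1.T x + Q2.T x) := lfx_add Q1.lfT Q2.lfT
  have hT1 : ∀ x : List Bool, 0 < Q1.T x + Q2.T x := fun x => by
    have := Q1.T_pos x; omega
  obtain ⟨B, hB⟩ := bd_few (uni Q1 Q2 _ hT hT1) e C hκ1 hC
  exact ⟨_, dtisp_uni Q1 Q2 hT hT1 e hκ hκ1 B hB,
    fun x => sep_chains (κ := fun x => κ x.length) Q1 Q2 e _ hT hT1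
      (fun x => Nat.le_add_right _ _) (fun x => Nat.le_add_left _ _) x⟩

/-- The zero test, for chains with few coins. -/
theorem dtisp_repL {κ lam : ℕ → ℕ} (hκ : LFx (fun x => κ x.length)) (hκ1 : ∀ n, 1 ≤ κ n)
    {f : List Bool → ℚ} (hf : RepL lam f) (e : ℕ) :
    ∃ A : Set (List Bool), DTISP (fun n => (n + 2) ^ κ n)
      (fun n => Nat.log 2 (n + 2) * (κ n + Nat.log 2 (Nat.log 2 (n + 2)) +
        lam n / (κ n * (Nat.log 2 (κ n * (Nat.log 2 (n + 2) / lam n + 1)) + 1)))) A ∧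
      ∀ x : List Bool,
        (1 / ((x.length : ℚ) + 2) ^ (e * κ x.length) ≤ f x → x ∈ A) ∧ (f x ≤ 0 → x ∉ A) := by
  obtain ⟨s, A, B, hA, hB, h⟩ := hf
  have hm : LFx (fun x => s + e * κ x.length * (Nat.log 2 (x.length + 2) + 1)) := by
    have h1 : LFx (fun x => Nat.log 2 (x.length + 2) + 1) :=
      (P313.LF.log2 (P313.LF.len.add (P313.LF.const 2))).succ
    have h2 : LFx (fun x => e * κ x.length * (Nat.log 2 (x.length + 2) + 1)) :=
      P313.LF.mul (P313.LF.mul (P313.LF.const e) hκ) h1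
    exact P313.LF.add (P313.LF.const s) h2
  obtain ⟨QL, CL, hCL, hQL⟩ := hA.avg IsPrL.zero
  obtain ⟨QB, CB, hCB, hQB⟩ := hB
  obtain ⟨L, hL, hx⟩ := dtisp_chainsL (lam := lam) hκ hκ1 QL
    (cond (PT.tiny (fun _ => 0) lfx_zero') QB (PT.tiny _ hm)) (s + 2 + 2 * e)
    (CL + CB + s + 2 * e + 2) (fun x => by
      show QL.T x + (0 + 1 + (QB.T x +
        (s + e * κ x.length * (Nat.log 2 (x.length + 2) + 1) + 1))) ≤ _
      have h1 := hCL x
      have h2 := hCB x
      have hk := hκ1 x.length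
      have hLe : Nat.log 2 (x.length + 2) = Ln x := rfl
      have hL1 : 1 ≤ Ln x := Ln_pos x
      rw [hLe]
      generalize κ x.length = k at *
      generalize Ln x = Y at *
      generalize 2 ^ lam x.length = Z at *
      have h3 : 1 ≤ k * Y := Nat.mul_pos hk hL1
      have h4 : e * k ≤ e * (k * Y) := Nat.mul_le_mul_left _ (Nat.le_mul_of_pos_right _ hL1)
      have h5 : s + 2 ≤ (s + 2) * (k * Y) := Nat.le_mul_of_pos_right _ h3
      have h6 : 0 ≤ (s + 2 * e + 2) * Z := Nat.zero_le _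
      have h7 : 0 ≤ (CL + CB) * (k * Y) := Nat.zero_le _
      calc QL.T x + (0 + 1 + (QB.T x + (s + e * k * (Y + 1) + 1))) ≤
            CL * Z + CB * Z + (s + 2) + e * (k * Y) + e * k := by
              have e1 : e * k * (Y + 1) = e * (k * Y) + e * k := by ring
              rw [e1]
              omega
        _ ≤ CL * Z + CB * Z + (s + 2) * (k * Y) + e * (k * Y) + e * (k * Y) := by omega
        _ ≤ CL * Z + CB * Z + (s + 2) * (k * Y) + e * (k * Y) + e * (k * Y) +
              (s + 2 * e + 2) * Z + (CL + CB) * (k * Y) := by omega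
        _ = _ := by ring)
  refine ⟨L, hL, fun x => ?_⟩
  obtain ⟨g1, g2⟩ := hx x
  have eL : pr QL x = (A x + 0) / 2 := hQL x
  have eR : pr (cond (PT.tiny (fun _ => 0) lfx_zero') QB (PT.tiny _ hm)) x = (B x +
      1 / 2 ^ ((s + e * κ x.length * (Nat.log 2 (x.length + 2) + 1)) + 1)) / 2 := by
    have h1 := pr_tiny (fun _ => 0) lfx_zero' x
    have h2 := pr_tiny _ hm x
    rw [pr_cond, h1, hQB, h2]
    ring
  rw [eL, eR] at g1 g2
  clear eL eR hQL hx hL
  have hk := hκ1 x.length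
  generalize κ x.length = k at *
  have hN : ((x.length + 2 : ℕ) : ℚ) = (x.length : ℚ) + 2 := by push_cast; ring
  have hN2 : 2 ≤ x.length + 2 := by omega
  rw [← hN] at g1 g2 ⊢
  generalize x.length + 2 = n at *
  have hl1 : n ≤ 2 ^ (Nat.log 2 n + 1) := (Nat.lt_pow_succ_log_self (by norm_num) n).le
  have hl2 : 2 ^ (Nat.log 2 n + 1) ≤ n ^ 2 := by
    have := Nat.pow_log_le_self 2 (show n ≠ 0 by omega)
    rw [pow_succ, sq]
    exact Nat.mul_le_mul this hN2
  have hU1 : 4 * (2 ^ s * n ^ (e * k)) ≤ 2 ^ (s + e * k * (Nat.log 2 n + 1) + 2) := by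
    have h1 : n ^ (e * k) ≤ 2 ^ (e * k * (Nat.log 2 n + 1)) := by
      rw [mul_comm (e * k), pow_mul 2 (Nat.log 2 n + 1) (e * k)]
      exact Nat.pow_le_pow_left hl1 _
    rw [pow_add, pow_add]
    calc 4 * (2 ^ s * n ^ (e * k)) = 2 ^ s * n ^ (e * k) * 2 ^ 2 := by ring
      _ ≤ _ := Nat.mul_le_mul_right _ (Nat.mul_le_mul_left _ h1)
  have hU2 : 2 ^ (s + e * k * (Nat.log 2 n + 1) + 2) ≤ n ^ ((s + 2 + 2 * e) * k) := by
    have h1 : 2 ^ (e * k * (Nat.log 2 n + 1)) ≤ n ^ (2 * (e * k)) := by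
      rw [mul_comm (e * k), pow_mul 2 (Nat.log 2 n + 1) (e * k), pow_mul n 2 (e * k)]
      exact Nat.pow_le_pow_left hl2 _
    calc 2 ^ (s + e * k * (Nat.log 2 n + 1) + 2) =
          2 ^ (s + 2) * 2 ^ (e * k * (Nat.log 2 n + 1)) := by rw [← pow_add]; congr 1; ring
      _ ≤ n ^ (s + 2) * n ^ (2 * (e * k)) :=
          Nat.mul_le_mul (Nat.pow_le_pow_left hN2 _) h1
      _ = n ^ (s + 2 + 2 * (e * k)) := by rw [← pow_add]
      _ ≤ n ^ ((s + 2 + 2 * e) * k) := by
          apply Nat.pow_le_pow_right (by omega)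
          have h2 : s + 2 ≤ (s + 2) * k := Nat.le_mul_of_pos_right _ hk
          calc s + 2 + 2 * (e * k) ≤ (s + 2) * k + 2 * (e * k) := by omega
            _ = (s + 2 + 2 * e) * k := by ring
  have hU1' : 4 * ((2 : ℚ) ^ s * (n : ℚ) ^ (e * k)) ≤
      2 ^ (s + e * k * (Nat.log 2 n + 1) + 1) * 2 := by
    rw [← pow_succ]
    exact_mod_cast hU1
  have hU2' : (2 : ℚ) ^ (s + e * k * (Nat.log 2 n + 1) + 1) * 2 ≤
      (n : ℚ) ^ ((s + 2 + 2 * e) * k) := by
    rw [← pow_succ]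
    exact_mod_cast hU2
  have hn0 : (0 : ℚ) < n := by exact_mod_cast (show 0 < n by omega)
  have hW : (0 : ℚ) < 2 ^ s * (n : ℚ) ^ (e * k) := by positivity
  have hG : (0 : ℚ) < (n : ℚ) ^ (e * k) := by positivity
  have hs : (0 : ℚ) < 2 ^ s := by positivity
  have hfx := h x
  generalize (n : ℚ) ^ ((s + 2 + 2 * e) * k) = V at *
  generalize (2 : ℚ) ^ (s + e * k * (Nat.log 2 n + 1) + 1) = U at *
  generalize (n : ℚ) ^ (e * k) = G at *
  generalize (2 : ℚ) ^ s = S at *
  have hU0 : 0 < U := by linarith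
  have hV0 : 0 < V := by linarith
  have hV : 1 / V ≤ 1 / (U * 2) := one_div_le_one_div_of_le (by linarith) hU2'
  have hUW : 1 / (U * 2) ≤ 1 / (4 * (S * G)) := one_div_le_one_div_of_le (by linarith) hU1'
  have e1 : 1 / (U * 2) = 1 / U / 2 := by rw [div_div]
  have e2 : 1 / (4 * (S * G)) = 1 / (S * G) / 4 := by rw [mul_comm 4, div_div]
  constructor
  · intro hg
    apply g1
    rw [hfx] at hg
    have h3 : 1 / (S * G) ≤ A x - B x := by
      rw [div_le_iff₀ hW]
      rw [div_le_iff₀ hG] at hg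
      calc (1 : ℚ) ≤ S * (A x - B x) * G := hg
        _ = (A x - B x) * (S * G) := by ring
    linarith
  · intro h0
    apply g2
    rw [hfx] at h0
    have h3 : A x - B x ≤ 0 := by
      by_contra hc
      have := mul_pos hs (not_le.1 hc)
      linarith
    linarith

/-- The zero test of integer polynomials in acceptance probabilities of machines which use at
most `2 ^ lam` random bits. -/
theorem dtisp_polyL {κ lam : ℕ → ℕ} (hκ : LFx (fun x => κ x.length))
    (hl : LFx (fun x => lam x.length)) (hκ1 : ∀ n, 1 ≤ κ n)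
    {ι : Type} (M : ι → RTM) (c : ι → ℕ)
    (hM : ∀ i, (M i).Bounded (fun n => (n + 2) ^ c i) (fun n => c i * Nat.log 2 (n + 2)))
    (hR : ∀ i (x : List Bool) (v : Bool),
      (M i).probAt x v ((x.length + 2) ^ c i) (2 ^ lam x.length + 1) (M i).init = 0)
    (P : MvPolynomial ι ℤ) (e : ℕ) :
    ∃ A : Set (List Bool), DTISP (fun n => (n + 2) ^ κ n)
      (fun n => Nat.log 2 (n + 2) * (κ n + Nat.log 2 (Nat.log 2 (n + 2)) +
        lam n / (κ n * (Nat.log 2 (κ n * (Nat.log 2 (n + 2) / lam n + 1)) + 1)))) A ∧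
      ∀ x : List Bool,
        (1 / ((x.length : ℚ) + 2) ^ (e * κ x.length) ≤ MvPolynomial.aeval
          (fun i => (M i).probAt x true ((x.length + 2) ^ c i) 0 (M i).init) P → x ∈ A) ∧
        (MvPolynomial.aeval
          (fun i => (M i).probAt x true ((x.length + 2) ^ c i) 0 (M i).init) P ≤ 0 → x ∉ A) :=
  dtisp_repL hκ hκ1 (rep_aevalL (fun i => IsPrL.machine hl (M i) (c i) (hM i) (hR i)) P) e

end Vale.Agent.P313.PT
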